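import Mathlib

/-!
# Row 286 (S0533), library ANA, file 1: SMOOTHNESS CLASSES AND DIFFERENTIATION UNDER THE INTEGRAL      (helper251; prefix `ska_`, types `Ska*`)

MATHLIB ONLY, design free: `E`, `F` are arbitrary real normed spaces (in `Type`), e.g. `E = S → ℝ`.
* `ska_contDiffOn_integral`   `C^n` under the integral on an open domain + `D^k ∫ f = ∫ D^k f`;   `ska_contDiff_integral` the global version with bounds
* `SkaInc μ Z`                a random increment with all exponential moments of `‖Z‖`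
* `SkaReg n C G`              POTENTIALS: `C^n`, derivatives of the orders `1..n` bounded by `C`
* `SkaGr n c C A`, `SkaG n A` OBSERVABLES: `C^n`, all derivatives of the orders `≤ n` bounded by `C e^{c‖x‖}`
* closure of `SkaG`: `ska_G_const/add/sub/neg/sum/clm/bilin/smul/mul/const_smul/apply/clm_apply/fderiv/comp_affine/shift/of_le`
* `ska_tilt_int`              the normalised tilt integral `H ↦ E exp(m (G(H+Z) - G H))`: `C^n`, bounded derivatives, bounded below
* `ska_smul_bound`, `ska_comp_bdd`   pointwise Leibniz bound; composition with a scalar function smooth on the positive half line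
-/

set_option autoImplicit false

namespace Claimed.Agent.R286

open MeasureTheory


/-- **`C^n` under the integral sign** on an open set, with the formula for all derivatives -/
theorem ska_contDiffOn_integral {E : Type} {Ω : Type*} [NormedAddCommGroup E] [NormedSpace ℝ E] [MeasurableSpace Ω] (μ : Measure Ω) (n : ℕ) :
    ∀ {F : Type} [NormedAddCommGroup F] [NormedSpace ℝ F] [CompleteSpace F] (f : E → Ω → F) (B : ℕ → Ω → ℝ) (U : Set E), IsOpen U →
    (∀ ω, ContDiff ℝ n (fun x => f x ω)) →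
    (∀ k ≤ n, ∀ x, AEStronglyMeasurable (fun ω => iteratedFDeriv ℝ k (fun x => f x ω) x) μ) →
    (∀ k ≤ n, Integrable (B k) μ) →
    (∀ k ≤ n, ∀ x ∈ U, ∀ ω, ‖iteratedFDeriv ℝ k (fun x => f x ω) x‖ ≤ B k ω) →
    ContDiffOn ℝ n (fun x => ∫ ω, f x ω ∂μ) U ∧
      ∀ k ≤ n, ∀ x ∈ U, iteratedFDeriv ℝ k (fun x => ∫ ω, f x ω ∂μ) x = ∫ ω, iteratedFDeriv ℝ k (fun x => f x ω) x ∂μ := by
  have key0 : ∀ {F : Type} [NormedAddCommGroup F] [NormedSpace ℝ F] [CompleteSpace F] (f : E → Ω → F) (x : E),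
      iteratedFDeriv ℝ 0 (fun x => ∫ ω, f x ω ∂μ) x = ∫ ω, iteratedFDeriv ℝ 0 (fun x => f x ω) x ∂μ := by
    intro F _ _ _ f x
    simp only [iteratedFDeriv_zero_eq_comp, Function.comp_apply]
    exact ((continuousMultilinearCurryFin0 ℝ E F).symm.toContinuousLinearEquiv.integral_comp_comm _).symm
  induction n with
  | zero =>
    intro F _ _ _ f B U hU hf hm hB hb
    have hm0 : ∀ x, AEStronglyMeasurable (f x) μ := fun x => by
      have h := hm 0 le_rfl x
      have e : (fun ω => f x ω) = fun ω => (continuousMultilinearCurryFin0 ℝ E F) (iteratedFDeriv ℝ 0 (fun x => f x ω) x) := by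
        funext ω
        simp
      rw [show f x = fun ω => f x ω from rfl, e]
      exact (continuousMultilinearCurryFin0 ℝ E F).continuous.comp_aestronglyMeasurable h
    have hb0 : ∀ x ∈ U, ∀ ω, ‖f x ω‖ ≤ B 0 ω := fun x hx ω => by
      have := hb 0 le_rfl x hx ω
      rwa [norm_iteratedFDeriv_zero] at this
    refine ⟨?_, ?_⟩
    · rw [Nat.cast_zero, contDiffOn_zero]
      exact continuousOn_of_dominated (fun x _ => hm0 x) (fun x hx => Filter.Eventually.of_forall (hb0 x hx)) (hB 0 le_rfl)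
        (Filter.Eventually.of_forall fun ω => (hf ω).continuous.continuousOn)
    · intro k hk x _
      obtain rfl : k = 0 := Nat.le_zero.1 hk
      exact key0 f x
  | succ n ih =>
    intro F _ _ _ f B U hU hf hm hB hb
    have hm0 : ∀ x, AEStronglyMeasurable (f x) μ := fun x => by
      have h := hm 0 (Nat.zero_le _) x
      have e : (fun ω => f x ω) = fun ω => (continuousMultilinearCurryFin0 ℝ E F) (iteratedFDeriv ℝ 0 (fun x => f x ω) x) := by
        funext ω
        simp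
      rw [show f x = fun ω => f x ω from rfl, e]
      exact (continuousMultilinearCurryFin0 ℝ E F).continuous.comp_aestronglyMeasurable h
    have hb0 : ∀ x ∈ U, ∀ ω, ‖f x ω‖ ≤ B 0 ω := fun x hx ω => by
      have := hb 0 (Nat.zero_le _) x hx ω
      rwa [norm_iteratedFDeriv_zero] at this
    have hint : ∀ x ∈ U, Integrable (f x) μ := fun x hx => (hB 0 (Nat.zero_le _)).mono' (hm0 x) (Filter.Eventually.of_forall (hb0 x hx))
    -- the derivative
    have hf' : ∀ ω, ContDiff ℝ n (fun x => fderiv ℝ (fun x => f x ω) x) := fun ω => by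
      have := hf ω
      rw [Nat.cast_succ, contDiff_succ_iff_fderiv] at this
      exact this.2.2
    have hdiff : ∀ ω, Differentiable ℝ (fun x => f x ω) := fun ω => (hf ω).differentiable (by simp)
    have hm' : ∀ k ≤ n, ∀ x, AEStronglyMeasurable (fun ω => iteratedFDeriv ℝ k (fun x => fderiv ℝ (fun x => f x ω) x) x) μ := fun k hk x => by
      have h := hm (k + 1) (Nat.succ_le_succ hk) x
      have e : (fun ω => iteratedFDeriv ℝ k (fun x => fderiv ℝ (fun x => f x ω) x) x)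
          = fun ω => (continuousMultilinearCurryRightEquiv' ℝ k E F) (iteratedFDeriv ℝ (k + 1) (fun x => f x ω) x) := by
        funext ω
        rw [iteratedFDeriv_succ_eq_comp_right, Function.comp_apply, LinearIsometryEquiv.apply_symm_apply]
      rw [e]
      exact (continuousMultilinearCurryRightEquiv' ℝ k E F).continuous.comp_aestronglyMeasurable h
    have hb' : ∀ k ≤ n, ∀ x ∈ U, ∀ ω, ‖iteratedFDeriv ℝ k (fun x => fderiv ℝ (fun x => f x ω) x) x‖ ≤ B (k + 1) ω := fun k hk x hx ω => by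
      have := hb (k + 1) (Nat.succ_le_succ hk) x hx ω
      rwa [← norm_iteratedFDeriv_fderiv] at this
    obtain ⟨c1, c2⟩ := ih (fun x ω => fderiv ℝ (fun x => f x ω) x) (fun k => B (k + 1)) U hU hf' hm' (fun k hk => hB (k + 1) (Nat.succ_le_succ hk)) hb'
    have hder : ∀ x ∈ U, HasFDerivAt (fun x => ∫ ω, f x ω ∂μ) (∫ ω, fderiv ℝ (fun x => f x ω) x ∂μ) x := fun x hx => by
      refine hasFDerivAt_integral_of_dominated_of_fderiv_le (𝕜 := ℝ) (s := U) (bound := B 1) (F' := fun x ω => fderiv ℝ (fun x => f x ω) x) (hU.mem_nhds hx)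
        (Filter.Eventually.of_forall hm0) (hint x hx) ?_ ?_ (hB 1 (by omega)) ?_
      · have h := hm' 0 (Nat.zero_le _) x
        have e : (fun ω => fderiv ℝ (fun x => f x ω) x) = fun ω => (continuousMultilinearCurryFin0 ℝ E (E →L[ℝ] F)) (iteratedFDeriv ℝ 0 (fun x => fderiv ℝ (fun x => f x ω) x) x) := by
          funext ω
          simp
        rw [e]
        exact (continuousMultilinearCurryFin0 ℝ E (E →L[ℝ] F)).continuous.comp_aestronglyMeasurable h
      · refine Filter.Eventually.of_forall fun ω y hy => ?_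
        have := hb' 0 (Nat.zero_le _) y hy ω
        rwa [norm_iteratedFDeriv_zero] at this
      · exact Filter.Eventually.of_forall fun ω y _ => (hdiff ω y).hasFDerivAt
    have hfd : ∀ x ∈ U, fderiv ℝ (fun x => ∫ ω, f x ω ∂μ) x = ∫ ω, fderiv ℝ (fun x => f x ω) x ∂μ := fun x hx => (hder x hx).fderiv
    refine ⟨?_, ?_⟩
    · rw [Nat.cast_succ, contDiffOn_succ_iff_fderiv_of_isOpen hU]
      refine ⟨fun x hx => (hder x hx).differentiableAt.differentiableWithinAt, fun h => absurd h (by simp), ?_⟩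
      exact c1.congr hfd
    · intro k hk x hx
      rcases Nat.eq_zero_or_pos k with rfl | hk0
      · exact key0 f x
      · obtain ⟨j, rfl⟩ : ∃ j, k = j + 1 := ⟨k - 1, by omega⟩
        have hev : (fun y => fderiv ℝ (fun x => ∫ ω, f x ω ∂μ) y) =ᶠ[nhds x] fun y => ∫ ω, fderiv ℝ (fun x => f x ω) y ∂μ :=
          Filter.eventually_of_mem (hU.mem_nhds hx) hfd
        rw [iteratedFDeriv_succ_eq_comp_right, Function.comp_apply, (hev.iteratedFDeriv ℝ j).eq_of_nhds, c2 j (by omega) x hx]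
        simp only [iteratedFDeriv_succ_eq_comp_right, Function.comp_apply]
        exact (ContinuousLinearEquiv.integral_comp_comm (μ := μ) (𝕜 := ℝ) (E := E [×j]→L[ℝ] E →L[ℝ] F) (F := E [×j.succ]→L[ℝ] F)
          (continuousMultilinearCurryRightEquiv' ℝ j E F).symm.toContinuousLinearEquiv _).symm


/-- the global version, with bounds -/
theorem ska_contDiff_integral {E : Type} {Ω : Type*} [NormedAddCommGroup E] [NormedSpace ℝ E] [MeasurableSpace Ω] (μ : Measure Ω) (n : ℕ)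
    {F : Type} [NormedAddCommGroup F] [NormedSpace ℝ F] [CompleteSpace F] (f : E → Ω → F) (B : ℕ → Ω → ℝ)
    (hf : ∀ ω, ContDiff ℝ n (fun x => f x ω))
    (hm : ∀ k ≤ n, ∀ x, AEStronglyMeasurable (fun ω => iteratedFDeriv ℝ k (fun x => f x ω) x) μ)
    (hB : ∀ k ≤ n, Integrable (B k) μ)
    (hb : ∀ k ≤ n, ∀ x ω, ‖iteratedFDeriv ℝ k (fun x => f x ω) x‖ ≤ B k ω) :
    ContDiff ℝ n (fun x => ∫ ω, f x ω ∂μ) ∧ ∀ k ≤ n, ∀ x, ‖iteratedFDeriv ℝ k (fun x => ∫ ω, f x ω ∂μ) x‖ ≤ ∫ ω, B k ω ∂μ := by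
  obtain ⟨h1, h2⟩ := ska_contDiffOn_integral μ n f B Set.univ isOpen_univ hf hm hB (fun k hk x _ ω => hb k hk x ω)
  refine ⟨contDiffOn_univ.1 h1, fun k hk x => ?_⟩
  rw [h2 k hk x (Set.mem_univ _)]
  exact norm_integral_le_of_norm_le (hB k hk) (Filter.Eventually.of_forall (hb k hk x))

theorem ska_norm_iteratedFDeriv_exp (i : ℕ) (y : ℝ) : ‖iteratedFDeriv ℝ i Real.exp y‖ = Real.exp y := by
  rw [norm_iteratedFDeriv_eq_norm_iteratedDeriv, iteratedDeriv_eq_iterate, Real.iter_deriv_exp, Real.norm_eq_abs, abs_of_pos (Real.exp_pos y)]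

/-- partial iterated derivatives of a jointly `C^n` function depend continuously on the parameter -/
theorem ska_continuous_partial {E F : Type} [NormedAddCommGroup E] [NormedSpace ℝ E] [NormedAddCommGroup F] [NormedSpace ℝ F]
    {n : ℕ} {g : E × E → F} (hg : ContDiff ℝ n g) (k : ℕ) (hk : k ≤ n) (x : E) :
    Continuous fun z => iteratedFDeriv ℝ k (fun y => g (y, z)) x := by
  have e : ∀ z, iteratedFDeriv ℝ k (fun y => g (y, z)) x
      = ContinuousMultilinearMap.compContinuousLinearMapL (fun _ : Fin k => ContinuousLinearMap.inl ℝ E E) (iteratedFDeriv ℝ k g (x, z)) := by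
    intro z
    have h1 : (fun y => g (y, z)) = (fun p => g (p + (0, z))) ∘ (ContinuousLinearMap.inl ℝ E E) := by
      funext y
      simp
    have h2 : ContDiff ℝ n (fun p : E × E => g (p + (0, z))) := hg.comp (contDiff_id.add contDiff_const)
    rw [h1, ContinuousLinearMap.iteratedFDeriv_comp_right _ h2 x (by exact_mod_cast hk), iteratedFDeriv_comp_add_right]
    simp
  simp_rw [e]
  refine (ContinuousLinearMap.continuous _).comp ((hg.continuous_iteratedFDeriv (by exact_mod_cast hk)).comp ?_)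
  exact continuous_const.prodMk continuous_id

/-- a random increment with all exponential moments -/
structure SkaInc {E : Type} [NormedAddCommGroup E] {Ω : Type*} [MeasurableSpace Ω] (μ : Measure Ω) (Z : Ω → E) : Prop where
  meas : AEStronglyMeasurable Z μ
  expm : ∀ c : ℝ, Integrable (fun ω => Real.exp (c * ‖Z ω‖)) μ



/-- `C^n`, the derivatives of the orders `1..n` are bounded by `C` -/
def SkaReg {E F : Type} [NormedAddCommGroup E] [NormedSpace ℝ E] [NormedAddCommGroup F] [NormedSpace ℝ F] (n : ℕ) (C : ℝ) (G : E → F) : Prop :=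
  ContDiff ℝ n G ∧ ∀ k, 1 ≤ k → k ≤ n → ∀ x, ‖iteratedFDeriv ℝ k G x‖ ≤ C

/-- observables: `C^n`, all derivatives of the orders `≤ n` are bounded by `C e^{c‖x‖}` -/
def SkaGr {E F : Type} [NormedAddCommGroup E] [NormedSpace ℝ E] [NormedAddCommGroup F] [NormedSpace ℝ F] (n : ℕ) (c C : ℝ) (A : E → F) : Prop :=
  ContDiff ℝ n A ∧ ∀ k ≤ n, ∀ x, ‖iteratedFDeriv ℝ k A x‖ ≤ C * Real.exp (c * ‖x‖)

/-- the class of the observables -/
def SkaG {E F : Type} [NormedAddCommGroup E] [NormedSpace ℝ E] [NormedAddCommGroup F] [NormedSpace ℝ F] (n : ℕ) (A : E → F) : Prop :=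
  ∃ c C : ℝ, 0 ≤ c ∧ SkaGr n c C A

theorem ska_cls_eqns_cite : True := by
  have := @SkaReg.eq_1
  have := @SkaGr.eq_1
  have := @SkaG.eq_1
  trivial

section cls

variable {E F F₂ F₃ E₂ : Type} [NormedAddCommGroup E] [NormedSpace ℝ E] [NormedAddCommGroup F] [NormedSpace ℝ F]
  [NormedAddCommGroup F₂] [NormedSpace ℝ F₂] [NormedAddCommGroup F₃] [NormedSpace ℝ F₃] [NormedAddCommGroup E₂] [NormedSpace ℝ E₂]

theorem ska_gr_nonneg {n : ℕ} {c C : ℝ} {A : E → F} (h : SkaGr n c C A) : 0 ≤ C := by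
  have := (norm_nonneg _).trans (h.2 0 (Nat.zero_le _) 0)
  simpa using this

theorem ska_gr_mono {n : ℕ} {c C c' C' : ℝ} {A : E → F} (h : SkaGr n c C A) (hc : c ≤ c') (hC : C ≤ C') : SkaGr n c' C' A :=
  ⟨h.1, fun k hk x => (h.2 k hk x).trans (mul_le_mul hC (Real.exp_le_exp.2 (mul_le_mul_of_nonneg_right hc (norm_nonneg _))) (Real.exp_pos _).le
    ((ska_gr_nonneg h).trans hC))⟩

theorem ska_G_contDiff {n : ℕ} {A : E → F} (h : SkaG n A) : ContDiff ℝ n A := by
  obtain ⟨c, C, _, h⟩ := h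
  exact h.1

theorem ska_G_of_le {n n' : ℕ} {A : E → F} (h : SkaG n A) (hn : n' ≤ n) : SkaG n' A := by
  obtain ⟨c, C, hc, h⟩ := h
  exact ⟨c, C, hc, h.1.of_le (by exact_mod_cast hn), fun k hk x => h.2 k (hk.trans hn) x⟩

theorem ska_G_const (n : ℕ) (a : F) : SkaG n (fun _ : E => a) := by
  refine ⟨0, ‖a‖, le_rfl, contDiff_const, fun k _ x => ?_⟩
  rcases Nat.eq_zero_or_pos k with rfl | hk
  · simp
  · rw [iteratedFDeriv_const_of_ne (by omega)]
    simp

theorem ska_G_add {n : ℕ} {A B : E → F} (hA : SkaG n A) (hB : SkaG n B) : SkaG n (fun x => A x + B x) := by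
  obtain ⟨c, C, hc, hA⟩ := hA
  obtain ⟨c', C', hc', hB⟩ := hB
  have hA' := ska_gr_mono hA (le_max_left c c') le_rfl
  have hB' := ska_gr_mono hB (le_max_right c c') le_rfl
  refine ⟨max c c', C + C', hc.trans (le_max_left _ _), hA.1.add hB.1, fun k hk x => ?_⟩
  have hk' : ((k : ℕ) : WithTop ℕ∞) ≤ n := by exact_mod_cast hk
  rw [show (fun x => A x + B x) = A + B from rfl, iteratedFDeriv_add_apply (hA.1.of_le hk').contDiffAt (hB.1.of_le hk').contDiffAt, add_mul]
  exact (norm_add_le _ _).trans (add_le_add (hA'.2 k hk x) (hB'.2 k hk x))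

/-- post-composition with a continuous linear map -/
theorem ska_G_clm {n : ℕ} {A : E → F} (hA : SkaG n A) (L : F →L[ℝ] F₂) : SkaG n (fun x => L (A x)) := by
  obtain ⟨c, C, hc, hA⟩ := hA
  refine ⟨c, ‖L‖ * C, hc, L.contDiff.comp hA.1, fun k hk x => ?_⟩
  have hk' : ((k : ℕ) : WithTop ℕ∞) ≤ n := by exact_mod_cast hk
  rw [show (fun x => L (A x)) = L ∘ A from rfl, L.iteratedFDeriv_comp_left hA.1.contDiffAt hk', mul_assoc]
  exact (L.norm_compContinuousMultilinearMap_le _).trans (mul_le_mul_of_nonneg_left (hA.2 k hk x) (norm_nonneg _))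

theorem ska_G_neg {n : ℕ} {A : E → F} (hA : SkaG n A) : SkaG n (fun x => -A x) := by
  simpa using ska_G_clm hA (-ContinuousLinearMap.id ℝ F)

theorem ska_G_sub {n : ℕ} {A B : E → F} (hA : SkaG n A) (hB : SkaG n B) : SkaG n (fun x => A x - B x) := by
  simpa [sub_eq_add_neg] using ska_G_add hA (ska_G_neg hB)

theorem ska_G_sum {n : ℕ} {κ : Type*} (s : Finset κ) {A : κ → E → F} (hA : ∀ i ∈ s, SkaG n (A i)) : SkaG n (fun x => ∑ i ∈ s, A i x) := by
  classical
  induction s using Finset.induction_on with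
  | empty => simpa using ska_G_const (E := E) n (0 : F)
  | insert a s ha ih =>
    simp only [Finset.sum_insert ha]
    exact ska_G_add (hA a (Finset.mem_insert_self _ _)) (ih fun i hi => hA i (Finset.mem_insert_of_mem hi))

/-- bilinear operations -/
theorem ska_G_bilin {n : ℕ} (L : F →L[ℝ] F₂ →L[ℝ] F₃) {A : E → F} {B : E → F₂} (hA : SkaG n A) (hB : SkaG n B) : SkaG n (fun x => L (A x) (B x)) := by
  obtain ⟨c, C, hc, hA⟩ := hA
  obtain ⟨c', C', hc', hB⟩ := hB
  have hC := ska_gr_nonneg hA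
  have hC' := ska_gr_nonneg hB
  refine ⟨c + c', ‖L‖ * (2 ^ n * (C * C')), add_nonneg hc hc', L.isBoundedBilinearMap.contDiff.comp (hA.1.prodMk hB.1), fun k hk x => ?_⟩
  have hk' : ((k : ℕ) : WithTop ℕ∞) ≤ n := by exact_mod_cast hk
  refine (L.norm_iteratedFDeriv_le_of_bilinear hA.1 hB.1 x hk').trans ?_
  rw [mul_assoc]
  refine mul_le_mul_of_nonneg_left ?_ (norm_nonneg L)
  have h2 : ∑ i ∈ Finset.range (k + 1), (k.choose i : ℝ) * ‖iteratedFDeriv ℝ i A x‖ * ‖iteratedFDeriv ℝ (k - i) B x‖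
      ≤ ∑ i ∈ Finset.range (k + 1), (k.choose i : ℝ) * ((C * C') * Real.exp ((c + c') * ‖x‖)) := by
    refine Finset.sum_le_sum fun i hi => ?_
    have hi' : i ≤ k := Nat.lt_succ_iff.1 (Finset.mem_range.1 hi)
    rw [mul_assoc]
    refine mul_le_mul_of_nonneg_left ?_ (Nat.cast_nonneg _)
    refine (mul_le_mul (hA.2 i (hi'.trans hk) x) (hB.2 (k - i) ((Nat.sub_le _ _).trans hk) x) (norm_nonneg _) (by positivity)).trans (le_of_eq ?_)
    rw [add_mul, Real.exp_add]
    ring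
  refine h2.trans ?_
  rw [← Finset.sum_mul]
  have h3 : ∑ i ∈ Finset.range (k + 1), (k.choose i : ℝ) = 2 ^ k := by exact_mod_cast Nat.sum_range_choose k
  rw [h3, mul_assoc (2 ^ n : ℝ)]
  refine mul_le_mul_of_nonneg_right (pow_le_pow_right₀ (by norm_num) hk) (by positivity)

theorem ska_G_smul {n : ℕ} {a : E → ℝ} {B : E → F} (ha : SkaG n a) (hB : SkaG n B) : SkaG n (fun x => a x • B x) :=
  ska_G_bilin (ContinuousLinearMap.lsmul ℝ ℝ) ha hB

theorem ska_G_mul {n : ℕ} {a b : E → ℝ} (ha : SkaG n a) (hb : SkaG n b) : SkaG n (fun x => a x * b x) :=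
  ska_G_smul ha hb

theorem ska_G_const_smul {n : ℕ} (a : ℝ) {B : E → F} (hB : SkaG n B) : SkaG n (fun x => a • B x) :=
  ska_G_smul (ska_G_const n a) hB

theorem ska_G_apply {n : ℕ} {A : E → F →L[ℝ] F₂} (hA : SkaG n A) (v : F) : SkaG n (fun x => A x v) :=
  ska_G_clm hA (ContinuousLinearMap.apply ℝ F₂ v)

theorem ska_G_clm_apply {n : ℕ} {A : E → F →L[ℝ] F₂} {B : E → F} (hA : SkaG n A) (hB : SkaG n B) : SkaG n (fun x => A x (B x)) :=
  ska_G_bilin (ContinuousLinearMap.id ℝ (F →L[ℝ] F₂)) hA hB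

theorem ska_G_fderiv {n : ℕ} {A : E → F} (hA : SkaG (n + 1) A) : SkaG n (fderiv ℝ A) := by
  obtain ⟨c, C, hc, hA⟩ := hA
  refine ⟨c, C, hc, ?_, fun k hk x => ?_⟩
  · have := hA.1
    rw [Nat.cast_succ, contDiff_succ_iff_fderiv] at this
    exact this.2.2
  · rw [norm_iteratedFDeriv_fderiv]
    exact hA.2 (k + 1) (Nat.succ_le_succ hk) x

/-- affine change of the variable -/
theorem ska_G_comp_affine {n : ℕ} {A : E → F} (hA : SkaG n A) (L : E₂ →L[ℝ] E) (z : E) : SkaG n (fun y => A (z + L y)) := by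
  obtain ⟨c, C, hc, hA⟩ := hA
  have hC := ska_gr_nonneg hA
  have h2 : ContDiff ℝ n (fun p : E => A (z + p)) := hA.1.comp (contDiff_const.add contDiff_id)
  refine ⟨c * ‖L‖, C * Real.exp (c * ‖z‖) * (max 1 ‖L‖) ^ n, by positivity, h2.comp L.contDiff, fun k hk y => ?_⟩
  have hk' : ((k : ℕ) : WithTop ℕ∞) ≤ n := by exact_mod_cast hk
  rw [show (fun y => A (z + L y)) = (fun p : E => A (z + p)) ∘ L from rfl, L.iteratedFDeriv_comp_right h2 y hk', iteratedFDeriv_comp_add_left]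
  refine (ContinuousMultilinearMap.norm_compContinuousLinearMap_le _ _).trans ?_
  rw [Finset.prod_const, Finset.card_univ, Fintype.card_fin]
  have h3 : ‖L‖ ^ k ≤ (max 1 ‖L‖) ^ n :=
    (pow_le_pow_left₀ (norm_nonneg _) (le_max_right _ _) k).trans (pow_le_pow_right₀ (le_max_left _ _) hk)
  have h4 : ‖iteratedFDeriv ℝ k A (z + L y)‖ ≤ C * Real.exp (c * ‖z‖) * Real.exp (c * ‖L‖ * ‖y‖) := by
    refine (hA.2 k hk _).trans ?_
    rw [mul_assoc, ← Real.exp_add]
    refine mul_le_mul_of_nonneg_left (Real.exp_le_exp.2 ?_) hC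
    have : ‖z + L y‖ ≤ ‖z‖ + ‖L‖ * ‖y‖ := (norm_add_le _ _).trans (add_le_add le_rfl (L.le_opNorm y))
    nlinarith
  calc ‖iteratedFDeriv ℝ k A (z + L y)‖ * ‖L‖ ^ k ≤ (C * Real.exp (c * ‖z‖) * Real.exp (c * ‖L‖ * ‖y‖)) * (max 1 ‖L‖) ^ n :=
        mul_le_mul h4 h3 (by positivity) (by positivity)
    _ = _ := by ring

theorem ska_G_shift {n : ℕ} {A : E → F} (hA : SkaG n A) (z : E) : SkaG n (fun y => A (y + z)) := by
  simpa [add_comm] using ska_G_comp_affine hA (ContinuousLinearMap.id ℝ E) z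

end cls

section tilt

variable {E : Type} [NormedAddCommGroup E] [NormedSpace ℝ E] {Ω : Type*} [MeasurableSpace Ω] {μ : Measure Ω} {Z : Ω → E}

theorem ska_reg_lip {n : ℕ} {C : ℝ} {G : E → ℝ} (hn : 1 ≤ n) (hG : SkaReg n C G) (x z : E) : |G (x + z) - G x| ≤ C * ‖z‖ := by
  have h := Convex.norm_image_sub_le_of_norm_fderiv_le (𝕜 := ℝ) (f := G) (s := Set.univ) (C := C) (x := x) (y := x + z)
    (fun y _ => (hG.1.differentiable (by simp; omega)) y)
    (fun y _ => by rw [← norm_iteratedFDeriv_one]; exact hG.2 1 le_rfl hn y) convex_univ (Set.mem_univ _) (Set.mem_univ _)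
  rwa [add_sub_cancel_left, Real.norm_eq_abs] at h

theorem ska_reg_nonneg {n : ℕ} {C : ℝ} {G : E → ℝ} (hn : 1 ≤ n) (hG : SkaReg n C G) : 0 ≤ C :=
  (norm_nonneg _).trans (hG.2 1 le_rfl hn 0)

/-- derivatives of the normalised exponent -/
theorem ska_tilt_exponent {n : ℕ} {C : ℝ} {G : E → ℝ} (hG : SkaReg n C G) (m : ℝ) (z : E) :
    ContDiff ℝ n (fun H => m * (G (H + z) - G H)) ∧
      ∀ k, 1 ≤ k → k ≤ n → ∀ H, ‖iteratedFDeriv ℝ k (fun H => m * (G (H + z) - G H)) H‖ ≤ |m| * (2 * C) := by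
  have h1 : ContDiff ℝ n (fun H => G (H + z)) := hG.1.comp (contDiff_id.add contDiff_const)
  refine ⟨contDiff_const.mul (h1.sub hG.1), fun k hk1 hkn H => ?_⟩
  have hk : ((k : ℕ) : WithTop ℕ∞) ≤ n := by exact_mod_cast hkn
  have e : (fun H => m * (G (H + z) - G H)) = m • ((fun H => G (H + z)) - G) := by
    funext H
    simp
  have h2 : ContDiff ℝ n ((fun H => G (H + z)) - G) := h1.sub hG.1
  rw [e, iteratedFDeriv_const_smul_apply (h2.of_le hk).contDiffAt,
    iteratedFDeriv_sub_apply (h1.of_le hk).contDiffAt (hG.1.of_le hk).contDiffAt, iteratedFDeriv_comp_add_right, norm_smul, Real.norm_eq_abs]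
  refine mul_le_mul_of_nonneg_left ?_ (abs_nonneg m)
  refine (norm_sub_le _ _).trans ?_
  have := hG.2 k hk1 hkn (H + z)
  have := hG.2 k hk1 hkn H
  linarith

/-- **the normalised tilt integral** -/
theorem ska_tilt_int [IsProbabilityMeasure μ] (hZ : SkaInc μ Z) {n : ℕ} {C : ℝ} {G : E → ℝ} (hn : 1 ≤ n) (hG : SkaReg n C G) (m : ℝ) :
    ContDiff ℝ n (fun H => ∫ ω, Real.exp (m * (G (H + Z ω) - G H)) ∂μ) ∧
    (∀ k ≤ n, ∀ H, ‖iteratedFDeriv ℝ k (fun H => ∫ ω, Real.exp (m * (G (H + Z ω) - G H)) ∂μ) H‖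
      ≤ ∫ ω, k.factorial * Real.exp (|m| * C * ‖Z ω‖) * (max 1 (|m| * (2 * C))) ^ k ∂μ) ∧
    ∀ H, ∫ ω, Real.exp (-(|m| * C) * ‖Z ω‖) ∂μ ≤ ∫ ω, Real.exp (m * (G (H + Z ω) - G H)) ∂μ := by
  have hC := ska_reg_nonneg hn hG
  have hexp : ∀ H z, |m * (G (H + z) - G H)| ≤ |m| * C * ‖z‖ := fun H z => by
    rw [abs_mul, mul_assoc]
    exact mul_le_mul_of_nonneg_left (ska_reg_lip hn hG H z) (abs_nonneg m)
  have hjoint : ContDiff ℝ n (fun p : E × E => Real.exp (m * (G (p.1 + p.2) - G p.1))) := by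
    refine Real.contDiff_exp.comp (contDiff_const.mul ((hG.1.comp (contDiff_fst.add contDiff_snd)).sub (hG.1.comp contDiff_fst)))
  have hbd : ∀ k ≤ n, ∀ H z, ‖iteratedFDeriv ℝ k (fun H => Real.exp (m * (G (H + z) - G H))) H‖
      ≤ k.factorial * Real.exp (|m| * C * ‖z‖) * (max 1 (|m| * (2 * C))) ^ k := fun k hk H z => by
    obtain ⟨d1, d2⟩ := ska_tilt_exponent hG m z
    have h := norm_iteratedFDeriv_comp_le (𝕜 := ℝ) (g := Real.exp) (f := fun H => m * (G (H + z) - G H)) (n := k) (N := n)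
      Real.contDiff_exp d1 (by exact_mod_cast hk) H (C := Real.exp (m * (G (H + z) - G H))) (D := max 1 (|m| * (2 * C)))
      (fun i _ => (ska_norm_iteratedFDeriv_exp i _).le)
      (fun i hi1 hik => (d2 i hi1 (hik.trans hk) H).trans ((le_max_right _ _).trans (le_self_pow₀ (le_max_left _ _) (by omega))))
    refine h.trans ?_
    have h2 : Real.exp (m * (G (H + z) - G H)) ≤ Real.exp (|m| * C * ‖z‖) := Real.exp_le_exp.2 ((le_abs_self _).trans (hexp H z))
    gcongr
  have hI := ska_contDiff_integral μ n (fun H ω => Real.exp (m * (G (H + Z ω) - G H)))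
    (fun k ω => k.factorial * Real.exp (|m| * C * ‖Z ω‖) * (max 1 (|m| * (2 * C))) ^ k)
    (fun ω => Real.contDiff_exp.comp (ska_tilt_exponent hG m (Z ω)).1)
    (fun k hk H => (ska_continuous_partial hjoint k hk H).comp_aestronglyMeasurable hZ.meas)
    (fun k _ => ((hZ.expm (|m| * C)).const_mul _).mul_const _)
    (fun k hk H ω => hbd k hk H (Z ω))
  refine ⟨hI.1, hI.2, fun H => ?_⟩
  refine integral_mono (hZ.expm _) ?_ fun ω => Real.exp_le_exp.2 ?_
  · have h0 := hbd 0 (Nat.zero_le _) H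
    refine (hZ.expm (|m| * C)).mono' ?_ (Filter.Eventually.of_forall fun ω => ?_)
    · have := (ska_continuous_partial hjoint 0 (Nat.zero_le _) H).comp_aestronglyMeasurable hZ.meas
      have e : (fun ω => Real.exp (m * (G (H + Z ω) - G H))) = fun ω => (continuousMultilinearCurryFin0 ℝ E ℝ)
          (((fun z => iteratedFDeriv ℝ 0 (fun y => Real.exp (m * (G ((y, z).1 + (y, z).2) - G (y, z).1))) H) ∘ Z) ω) := by
        funext ω
        simp
      rw [e]
      exact (continuousMultilinearCurryFin0 ℝ E ℝ).continuous.comp_aestronglyMeasurable this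
    · have := h0 (Z ω)
      rw [norm_iteratedFDeriv_zero] at this
      simpa using this
  · have := (abs_le.1 (hexp H (Z ω))).1
    linarith

end tilt

section algebra

variable {E F : Type} [NormedAddCommGroup E] [NormedSpace ℝ E] [NormedAddCommGroup F] [NormedSpace ℝ F]

/-- pointwise Leibniz bound -/
theorem ska_smul_bound {n : ℕ} {f : E → ℝ} {g : E → F} (hf : ContDiff ℝ n f) (hg : ContDiff ℝ n g) (k : ℕ) (hk : k ≤ n) (x : E) {a b : ℝ}
    (ha : ∀ i ≤ k, ‖iteratedFDeriv ℝ i f x‖ ≤ a) (hb : ∀ i ≤ k, ‖iteratedFDeriv ℝ i g x‖ ≤ b) :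
    ‖iteratedFDeriv ℝ k (fun y => f y • g y) x‖ ≤ 2 ^ k * (a * b) := by
  have h := norm_iteratedFDeriv_smul_le (𝕜 := ℝ) hf hg x (n := k) (by exact_mod_cast hk)
  refine h.trans ?_
  have ha0 : 0 ≤ a := (norm_nonneg _).trans (ha 0 (Nat.zero_le _))
  have h2 : ∑ i ∈ Finset.range (k + 1), (k.choose i : ℝ) * ‖iteratedFDeriv ℝ i f x‖ * ‖iteratedFDeriv ℝ (k - i) g x‖
      ≤ ∑ i ∈ Finset.range (k + 1), (k.choose i : ℝ) * (a * b) := by
    refine Finset.sum_le_sum fun i hi => ?_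
    have hi' : i ≤ k := Nat.lt_succ_iff.1 (Finset.mem_range.1 hi)
    rw [mul_assoc]
    refine mul_le_mul_of_nonneg_left ?_ (Nat.cast_nonneg _)
    exact mul_le_mul (ha i hi') (hb (k - i) (Nat.sub_le _ _)) (norm_nonneg _) ha0
  refine h2.trans (le_of_eq ?_)
  rw [← Finset.sum_mul]
  congr 1
  have := Nat.sum_range_choose k
  exact_mod_cast this

/-- composition with a scalar function which is smooth on `(0, ∞)`, for a function with values in a compact interval -/
theorem ska_comp_bdd {n : ℕ} {φ : ℝ → ℝ} (hφ : ContDiffOn ℝ n φ (Set.Ioi 0)) {I : E → ℝ} (hI : ContDiff ℝ n I) {c0 C0 M : ℝ} (h0 : 0 < c0)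
    (hr : ∀ x, c0 ≤ I x ∧ I x ≤ C0) (hM : ∀ k, 1 ≤ k → k ≤ n → ∀ x, ‖iteratedFDeriv ℝ k I x‖ ≤ M) :
    ContDiff ℝ n (φ ∘ I) ∧ ∃ C', ∀ k ≤ n, ∀ x, ‖iteratedFDeriv ℝ k (φ ∘ I) x‖ ≤ C' := by
  have hmaps : ∀ x, I x ∈ Set.Ioi (0 : ℝ) := fun x => lt_of_lt_of_le h0 (hr x).1
  have hc : ContDiff ℝ n (φ ∘ I) := by
    rw [← contDiffOn_univ]
    exact hφ.comp hI.contDiffOn fun x _ => hmaps x
  refine ⟨hc, ?_⟩
  have hu : UniqueDiffOn ℝ (Set.Ioi (0 : ℝ)) := isOpen_Ioi.uniqueDiffOn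
  have hex : ∀ i : ℕ, ∃ Cl : ℝ, i ≤ n → ∀ y ∈ Set.Icc c0 C0, ‖iteratedFDerivWithin ℝ i φ (Set.Ioi 0) y‖ ≤ Cl := fun i => by
    by_cases hi : i ≤ n
    · have hcont := hφ.continuousOn_iteratedFDerivWithin (m := i) (by exact_mod_cast hi) hu
      obtain ⟨Cl, hCl⟩ := isCompact_Icc.exists_bound_of_continuousOn (hcont.mono fun y hy => lt_of_lt_of_le h0 hy.1 : ContinuousOn _ (Set.Icc c0 C0))
      exact ⟨Cl, fun _ => hCl⟩
    · exact ⟨0, fun h => absurd h hi⟩
  choose Cl hCl using hex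
  refine ⟨n.factorial * (∑ i ∈ Finset.range (n + 1), |Cl i|) * (max 1 M) ^ n, fun k hk x => ?_⟩
  have hsum : ∀ i ≤ n, Cl i ≤ ∑ i ∈ Finset.range (n + 1), |Cl i| := fun i hi =>
    (le_abs_self _).trans (Finset.single_le_sum (f := fun i => |Cl i|) (fun j _ => abs_nonneg _) (Finset.mem_range.2 (Nat.lt_succ_of_le hi)))
  have h := norm_iteratedFDeriv_comp_le' (𝕜 := ℝ) (g := φ) (f := I) (n := k) (N := n) (t := Set.Ioi 0)
    (by rintro _ ⟨x, rfl⟩; exact hmaps x) hu hφ hI (by exact_mod_cast hk) x (C := ∑ i ∈ Finset.range (n + 1), |Cl i|) (D := max 1 M)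
    (fun i hi => (hCl i (hi.trans hk) (I x) (hr x)).trans (hsum i (hi.trans hk)))
    (fun i hi1 hik => (hM i hi1 (hik.trans hk) x).trans ((le_max_right _ _).trans (le_self_pow₀ (le_max_left _ _) (by omega))))
  refine h.trans ?_
  have hs0 : 0 ≤ ∑ i ∈ Finset.range (n + 1), |Cl i| := Finset.sum_nonneg fun _ _ => abs_nonneg _
  have h1 : (k.factorial : ℝ) ≤ n.factorial := by exact_mod_cast Nat.factorial_le hk
  have h2 : (max 1 M) ^ k ≤ (max 1 M) ^ n := pow_le_pow_right₀ (le_max_left _ _) hk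
  have h3 : (0 : ℝ) ≤ (max 1 M) ^ k := by positivity
  gcongr

end algebra

end Claimed.Agent.R286
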