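import Claimed.Agent.R286.Ana.Cls

/-!
# Row 286 (S0533), library ANA, file 2: THE OPERATION `T_m` AND THE PLANTED KERNEL, ONE STEP      (helper251; prefix `ska_`)

Design free: `E` a real normed space (e.g. `S → ℝ`), `Z : Ω → E` an increment with all exponential moments (`SkaInc μ Z`), `μ` a probability measure.
* `ska_G_of_reg`, `ska_G_exp`      potentials and their exponentials are observables
* `ska_G_int`, `ska_G_conv`, `ska_conv_fderiv`      `H ↦ E A(H+Z)`: integrable, stays in the class, `D^k E A(H+Z) = E D^k A(H+Z)`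
* `skaT μ Z m G H`     `= m⁻¹ log E e^{m G(H+Z)}` (mean if `m = 0`);      `ska_T_reg` : `T_m` preserves the potentials;   `ska_exp_T`
* `skaP μ Z m G A H`   `= E [e^{m (G(H+Z) - T G H)} A(H+Z)]`;      `ska_P_G` : preserves the observables
* algebra of `P`: `ska_P_const/add/sub/const_smul/sum/clm/mono/nonneg/norm_le/bound`, integrability `ska_P_int`
* `ska_T_fderiv_apply`   `D(T G)[v] = P(DG[v])`;      `ska_T_hasFDerivAt`
* `ska_P_fderiv_apply`   `D(P A)[v] = P(DA[v]) + m (P(DG[v] A) - P(DG[v]) P(A))`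
-/

set_option autoImplicit false

namespace Claimed.Agent.R286

open MeasureTheory

section conv

variable {E F : Type} [NormedAddCommGroup E] [NormedSpace ℝ E] [NormedAddCommGroup F] [NormedSpace ℝ F]
  {Ω : Type*} [MeasurableSpace Ω] {μ : Measure Ω} {Z : Ω → E}

theorem ska_reg_lip' {n : ℕ} {C : ℝ} {G : E → F} (hn : 1 ≤ n) (hG : SkaReg n C G) (x z : E) : ‖G (x + z) - G x‖ ≤ C * ‖z‖ := by
  have h := Convex.norm_image_sub_le_of_norm_fderiv_le (𝕜 := ℝ) (f := G) (s := Set.univ) (C := C) (x := x) (y := x + z)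
    (fun y _ => (hG.1.differentiable (by simp; omega)) y)
    (fun y _ => by rw [← norm_iteratedFDeriv_one]; exact hG.2 1 le_rfl hn y) convex_univ (Set.mem_univ _) (Set.mem_univ _)
  rwa [add_sub_cancel_left] at h

theorem ska_reg_growth {n : ℕ} {C : ℝ} {G : E → F} (hn : 1 ≤ n) (hG : SkaReg n C G) (x : E) : ‖G x‖ ≤ ‖G 0‖ + C * ‖x‖ := by
  have h := ska_reg_lip' hn hG 0 x
  rw [zero_add] at h
  have := norm_sub_norm_le (G x) (G 0)
  linarith

theorem ska_G_of_reg {n : ℕ} {C : ℝ} {G : E → F} (hn : 1 ≤ n) (hG : SkaReg n C G) : SkaG n G := by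
  have hC : 0 ≤ C := (norm_nonneg _).trans (hG.2 1 le_rfl hn 0)
  refine ⟨1, ‖G 0‖ + C, zero_le_one, hG.1, fun k hk x => ?_⟩
  have h1 : 1 ≤ Real.exp (1 * ‖x‖) := Real.one_le_exp (by positivity)
  have h2 : ‖x‖ ≤ Real.exp (1 * ‖x‖) := by
    have := Real.add_one_le_exp (1 * ‖x‖)
    linarith
  rcases Nat.eq_zero_or_pos k with rfl | hk0
  · rw [norm_iteratedFDeriv_zero]
    refine (ska_reg_growth hn hG x).trans ?_
    have := norm_nonneg (G 0)
    nlinarith
  · refine (hG.2 k hk0 hk x).trans ?_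
    have := norm_nonneg (G 0)
    nlinarith

theorem ska_G_exp {n : ℕ} {C : ℝ} {G : E → ℝ} (hn : 1 ≤ n) (hG : SkaReg n C G) (m : ℝ) : SkaG n (fun x => Real.exp (m * G x)) := by
  have hC : 0 ≤ C := (norm_nonneg _).trans (hG.2 1 le_rfl hn 0)
  have d1 : ContDiff ℝ n (fun x => m * G x) := contDiff_const.mul hG.1
  refine ⟨|m| * C, n.factorial * Real.exp (|m| * ‖G 0‖) * (max 1 (|m| * C)) ^ n, by positivity, Real.contDiff_exp.comp d1, fun k hk x => ?_⟩
  have hk' : ((k : ℕ) : WithTop ℕ∞) ≤ n := by exact_mod_cast hk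
  have d2 : ∀ i, 1 ≤ i → i ≤ n → ‖iteratedFDeriv ℝ i (fun x => m * G x) x‖ ≤ |m| * C := fun i hi1 hin => by
    have hi' : ((i : ℕ) : WithTop ℕ∞) ≤ n := by exact_mod_cast hin
    rw [show (fun x => m * G x) = m • G from rfl, iteratedFDeriv_const_smul_apply (hG.1.of_le hi').contDiffAt, norm_smul, Real.norm_eq_abs]
    exact mul_le_mul_of_nonneg_left (hG.2 i hi1 hin x) (abs_nonneg m)
  have h := norm_iteratedFDeriv_comp_le (𝕜 := ℝ) (g := Real.exp) (f := fun x => m * G x) (n := k) (N := n)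
    Real.contDiff_exp d1 hk' x (C := Real.exp (m * G x)) (D := max 1 (|m| * C))
    (fun i _ => (ska_norm_iteratedFDeriv_exp i _).le)
    (fun i hi1 hik => (d2 i hi1 (hik.trans hk)).trans ((le_max_right _ _).trans (le_self_pow₀ (le_max_left _ _) (by omega))))
  refine h.trans ?_
  have h2 : Real.exp (m * G x) ≤ Real.exp (|m| * ‖G 0‖) * Real.exp (|m| * C * ‖x‖) := by
    rw [← Real.exp_add]
    refine Real.exp_le_exp.2 ?_
    have h3 := ska_reg_growth hn hG x
    calc m * G x ≤ |m * G x| := le_abs_self _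
      _ = |m| * ‖G x‖ := by rw [abs_mul, Real.norm_eq_abs]
      _ ≤ |m| * (‖G 0‖ + C * ‖x‖) := mul_le_mul_of_nonneg_left h3 (abs_nonneg m)
      _ = _ := by ring
  have h1 : (k.factorial : ℝ) ≤ n.factorial := by exact_mod_cast Nat.factorial_le hk
  have h4 : (max 1 (|m| * C)) ^ k ≤ (max 1 (|m| * C)) ^ n := pow_le_pow_right₀ (le_max_left _ _) hk
  calc (k.factorial : ℝ) * Real.exp (m * G x) * (max 1 (|m| * C)) ^ k
      ≤ (n.factorial : ℝ) * (Real.exp (|m| * ‖G 0‖) * Real.exp (|m| * C * ‖x‖)) * (max 1 (|m| * C)) ^ n := by gcongr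
    _ = _ := by ring

theorem ska_gr_shift_bound {n : ℕ} {c C : ℝ} {A : E → F} (hc : 0 ≤ c) (hA : SkaGr n c C A) (k : ℕ) (hk : k ≤ n) (H z : E) :
    ‖iteratedFDeriv ℝ k A (H + z)‖ ≤ C * Real.exp (c * ‖H‖) * Real.exp (c * ‖z‖) := by
  refine (hA.2 k hk _).trans ?_
  rw [mul_assoc, ← Real.exp_add]
  refine mul_le_mul_of_nonneg_left (Real.exp_le_exp.2 ?_) (ska_gr_nonneg hA)
  have := norm_add_le H z
  nlinarith

theorem ska_G_meas (hZ : SkaInc μ Z) {A : E → F} (hA : Continuous A) (H : E) : AEStronglyMeasurable (fun ω => A (H + Z ω)) μ :=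
  (hA.comp (continuous_const.add continuous_id)).comp_aestronglyMeasurable hZ.meas

theorem ska_G_int (hZ : SkaInc μ Z) {n : ℕ} {A : E → F} (hA : SkaG n A) (H : E) : Integrable (fun ω => A (H + Z ω)) μ := by
  obtain ⟨c, C, hc, hA⟩ := hA
  refine ((hZ.expm c).const_mul (C * Real.exp (c * ‖H‖))).mono' (ska_G_meas hZ hA.1.continuous H) (Filter.Eventually.of_forall fun ω => ?_)
  have := ska_gr_shift_bound hc hA 0 (Nat.zero_le _) H (Z ω)
  rwa [norm_iteratedFDeriv_zero] at this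

/-- **averaging over the increment** preserves the class and commutes with the derivatives -/
theorem ska_G_conv [CompleteSpace F] (hZ : SkaInc μ Z) {n : ℕ} {A : E → F} (hA : SkaG n A) :
    SkaG n (fun H => ∫ ω, A (H + Z ω) ∂μ) ∧
      ∀ k ≤ n, ∀ H, iteratedFDeriv ℝ k (fun H => ∫ ω, A (H + Z ω) ∂μ) H = ∫ ω, iteratedFDeriv ℝ k A (H + Z ω) ∂μ := by
  obtain ⟨c, C, hc, hA⟩ := hA
  have hC := ska_gr_nonneg hA
  have key : ∀ R : ℝ, ContDiffOn ℝ n (fun H => ∫ ω, A (H + Z ω) ∂μ) (Metric.ball 0 R) ∧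
      ∀ k ≤ n, ∀ H ∈ Metric.ball (0 : E) R, iteratedFDeriv ℝ k (fun H => ∫ ω, A (H + Z ω) ∂μ) H = ∫ ω, iteratedFDeriv ℝ k A (H + Z ω) ∂μ := by
    intro R
    have h := ska_contDiffOn_integral μ n (fun H ω => A (H + Z ω)) (fun _ ω => C * Real.exp (c * R) * Real.exp (c * ‖Z ω‖)) (Metric.ball 0 R) Metric.isOpen_ball
      (fun ω => hA.1.comp (contDiff_id.add contDiff_const))
      (fun k hk H => by
        simp only [iteratedFDeriv_comp_add_right]
        exact ska_G_meas hZ (hA.1.continuous_iteratedFDeriv (by exact_mod_cast hk)) H)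
      (fun k _ => (hZ.expm c).const_mul _)
      (fun k hk H hH ω => by
        rw [iteratedFDeriv_comp_add_right]
        refine (ska_gr_shift_bound hc hA k hk H (Z ω)).trans ?_
        have hH' : ‖H‖ ≤ R := by
          have := Metric.mem_ball.1 hH
          rw [dist_zero_right] at this
          exact this.le
        have : Real.exp (c * ‖H‖) ≤ Real.exp (c * R) := Real.exp_le_exp.2 (mul_le_mul_of_nonneg_left hH' hc)
        gcongr)
    refine ⟨h.1, fun k hk H hH => ?_⟩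
    rw [h.2 k hk H hH]
    simp only [iteratedFDeriv_comp_add_right]
  have hmem : ∀ H : E, H ∈ Metric.ball (0 : E) (‖H‖ + 1) := fun H => by
    rw [Metric.mem_ball, dist_zero_right]
    linarith
  have hform : ∀ k ≤ n, ∀ H, iteratedFDeriv ℝ k (fun H => ∫ ω, A (H + Z ω) ∂μ) H = ∫ ω, iteratedFDeriv ℝ k A (H + Z ω) ∂μ :=
    fun k hk H => (key (‖H‖ + 1)).2 k hk H (hmem H)
  refine ⟨⟨c, C * ∫ ω, Real.exp (c * ‖Z ω‖) ∂μ, hc, ?_, fun k hk H => ?_⟩, hform⟩
  · rw [contDiff_iff_contDiffAt]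
    exact fun H => (key (‖H‖ + 1)).1.contDiffAt (Metric.isOpen_ball.mem_nhds (hmem H))
  · rw [hform k hk H]
    refine (norm_integral_le_of_norm_le ((hZ.expm c).const_mul (C * Real.exp (c * ‖H‖)))
      (Filter.Eventually.of_forall fun ω => ska_gr_shift_bound hc hA k hk H (Z ω))).trans (le_of_eq ?_)
    rw [integral_const_mul]
    ring

theorem ska_conv_fderiv [CompleteSpace F] (hZ : SkaInc μ Z) {n : ℕ} (hn : 1 ≤ n) {A : E → F} (hA : SkaG n A) (H : E) :
    HasFDerivAt (fun H => ∫ ω, A (H + Z ω) ∂μ) (∫ ω, fderiv ℝ A (H + Z ω) ∂μ) H := by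
  obtain ⟨h1, h2⟩ := ska_G_conv hZ hA
  have hd : DifferentiableAt ℝ (fun H => ∫ ω, A (H + Z ω) ∂μ) H := (ska_G_contDiff h1).differentiable (by simp; omega) H
  have hA1 : SkaG (0 + 1) A := ska_G_of_le hA (by omega)
  have e : fderiv ℝ (fun H => ∫ ω, A (H + Z ω) ∂μ) H = ∫ ω, fderiv ℝ A (H + Z ω) ∂μ := by
    ext v
    have h3 := h2 1 hn H
    have h4 := congrArg (fun T => T (fun _ => v)) h3
    simp only [iteratedFDeriv_one_apply] at h4
    rw [h4, ContinuousMultilinearMap.integral_apply, ContinuousLinearMap.integral_apply (ska_G_int hZ (ska_G_fderiv hA1) H)]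
    · simp only [iteratedFDeriv_one_apply]
    · obtain ⟨c, C, hc, hA⟩ := hA
      refine ((hZ.expm c).const_mul (C * Real.exp (c * ‖H‖))).mono' (ska_G_meas hZ (hA.1.continuous_iteratedFDeriv (by exact_mod_cast hn)) H)
        (Filter.Eventually.of_forall fun ω => ska_gr_shift_bound hc hA 1 hn H (Z ω))
  rw [← e]
  exact hd.hasFDerivAt

end conv

section TP

variable {E F : Type} [NormedAddCommGroup E] [NormedSpace ℝ E] [NormedAddCommGroup F] [NormedSpace ℝ F]
  {Ω : Type*} [MeasurableSpace Ω] {μ : Measure Ω} {Z : Ω → E}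

/-- the operation `T_m` after the translation by the increment (`m = 0`: the mean) -/
noncomputable def skaT (μ : Measure Ω) (Z : Ω → E) (m : ℝ) (G : E → ℝ) (H : E) : ℝ :=
  if m = 0 then ∫ ω, G (H + Z ω) ∂μ else m⁻¹ * Real.log (∫ ω, Real.exp (m * G (H + Z ω)) ∂μ)

/-- the planted (tilted) kernel acting on an observable -/
noncomputable def skaP (μ : Measure Ω) (Z : Ω → E) (m : ℝ) (G : E → ℝ) (A : E → F) (H : E) : F :=
  ∫ ω, Real.exp (m * (G (H + Z ω) - skaT μ Z m G H)) • A (H + Z ω) ∂μ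

/-- the unnormalised kernel -/
noncomputable def skaN (μ : Measure Ω) (Z : Ω → E) (m : ℝ) (G : E → ℝ) (A : E → F) (H : E) : F :=
  ∫ ω, Real.exp (m * G (H + Z ω)) • A (H + Z ω) ∂μ

theorem ska_TP_eqns_cite : True := by
  have := @skaT.eq_1.{0}
  have := @skaP.eq_1.{0}
  have := @skaN.eq_1.{0}
  trivial

theorem ska_N_one (m : ℝ) (G : E → ℝ) (H : E) : skaN μ Z m G (fun _ => (1 : ℝ)) H = ∫ ω, Real.exp (m * G (H + Z ω)) ∂μ := by
  simp [skaN]

theorem ska_N_one_pos [IsProbabilityMeasure μ] (hZ : SkaInc μ Z) {n : ℕ} {C : ℝ} {G : E → ℝ} (hn : 1 ≤ n) (hG : SkaReg n C G) (m : ℝ) (H : E) :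
    0 < ∫ ω, Real.exp (m * G (H + Z ω)) ∂μ := by
  have hi : Integrable (fun ω => Real.exp (m * G (H + Z ω))) μ := ska_G_int hZ (ska_G_exp hn hG m) H
  rw [integral_pos_iff_support_of_nonneg (fun ω => (Real.exp_pos _).le) hi]
  have : Function.support (fun ω => Real.exp (m * G (H + Z ω))) = Set.univ := by
    ext ω
    simp [(Real.exp_pos _).ne']
  rw [this]
  simp

/-- `e^{m T G} = E e^{m G(H+Z)}` -/
theorem ska_exp_T [IsProbabilityMeasure μ] (hZ : SkaInc μ Z) {n : ℕ} {C : ℝ} {G : E → ℝ} (hn : 1 ≤ n) (hG : SkaReg n C G) (m : ℝ) (H : E) :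
    Real.exp (m * skaT μ Z m G H) = ∫ ω, Real.exp (m * G (H + Z ω)) ∂μ := by
  by_cases hm : m = 0
  · simp [hm]
  · rw [skaT, if_neg hm, ← mul_assoc, mul_inv_cancel₀ hm, one_mul, Real.exp_log (ska_N_one_pos hZ hn hG m H)]

theorem ska_P_eq_N (m : ℝ) (G : E → ℝ) (A : E → F) (H : E) :
    skaP μ Z m G A H = Real.exp (-m * skaT μ Z m G H) • skaN μ Z m G A H := by
  rw [skaP, skaN, ← integral_smul]
  refine integral_congr_ae (Filter.Eventually.of_forall fun ω => ?_)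
  simp only
  rw [smul_smul, ← Real.exp_add]
  congr 2
  ring

/-- `T_m G = G + m⁻¹ log E e^{m (G(H+Z) - G H)}` -/
theorem ska_T_eq_tilt [IsProbabilityMeasure μ] (hZ : SkaInc μ Z) {n : ℕ} {C : ℝ} {G : E → ℝ} (hn : 1 ≤ n) (hG : SkaReg n C G) {m : ℝ} (hm : m ≠ 0) (H : E) :
    skaT μ Z m G H = G H + m⁻¹ * Real.log (∫ ω, Real.exp (m * (G (H + Z ω) - G H)) ∂μ) := by
  have e : ∫ ω, Real.exp (m * (G (H + Z ω) - G H)) ∂μ = Real.exp (-(m * G H)) * ∫ ω, Real.exp (m * G (H + Z ω)) ∂μ := by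
    rw [← integral_const_mul]
    refine integral_congr_ae (Filter.Eventually.of_forall fun ω => ?_)
    simp only
    rw [← Real.exp_add]
    congr 1
    ring
  rw [e, Real.log_mul (Real.exp_pos _).ne' (ska_N_one_pos hZ hn hG m H).ne', Real.log_exp, skaT, if_neg hm]
  field_simp
  ring

/-- **`T_m` preserves the class of the potentials** -/
theorem ska_T_reg [IsProbabilityMeasure μ] (hZ : SkaInc μ Z) {n : ℕ} {C : ℝ} {G : E → ℝ} (hn : 1 ≤ n) (hG : SkaReg n C G) (m : ℝ) :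
    ∃ C', SkaReg n C' (skaT μ Z m G) := by
  by_cases hm : m = 0
  · obtain ⟨h1, h2⟩ := ska_G_conv hZ (ska_G_of_reg hn hG)
    have e : skaT μ Z m G = fun H => ∫ ω, G (H + Z ω) ∂μ := by
      funext H
      rw [skaT, if_pos hm]
    refine ⟨C, ?_, fun k hk1 hk H => ?_⟩
    · rw [e]
      exact ska_G_contDiff h1
    · rw [e, h2 k hk H]
      refine (norm_integral_le_of_norm_le (integrable_const C) (Filter.Eventually.of_forall fun ω => hG.2 k hk1 hk _)).trans ?_
      simp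
  · obtain ⟨t1, t2, t3⟩ := ska_tilt_int hZ hn hG m
    have hc0 : 0 < ∫ ω, Real.exp (-(|m| * C) * ‖Z ω‖) ∂μ := by
      rw [integral_pos_iff_support_of_nonneg (fun ω => (Real.exp_pos _).le) (hZ.expm _)]
      have : Function.support (fun ω => Real.exp (-(|m| * C) * ‖Z ω‖)) = Set.univ := by
        ext ω
        simp [(Real.exp_pos _).ne']
      rw [this]
      simp
    set M : ℝ := ∑ k ∈ Finset.range (n + 1), ∫ ω, k.factorial * Real.exp (|m| * C * ‖Z ω‖) * (max 1 (|m| * (2 * C))) ^ k ∂μ with hM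
    have hMk : ∀ k ≤ n, ∫ ω, k.factorial * Real.exp (|m| * C * ‖Z ω‖) * (max 1 (|m| * (2 * C))) ^ k ∂μ ≤ M := fun k hk =>
      Finset.single_le_sum (f := fun k : ℕ => ∫ ω, k.factorial * Real.exp (|m| * C * ‖Z ω‖) * (max 1 (|m| * (2 * C))) ^ k ∂μ)
        (fun j _ => integral_nonneg fun ω => by positivity) (Finset.mem_range.2 (Nat.lt_succ_of_le hk))
    obtain ⟨l1, C', l2⟩ := ska_comp_bdd (n := n) (φ := Real.log) (Real.contDiffOn_log.mono fun x hx => (ne_of_gt hx : x ≠ 0)) t1 hc0 (C0 := M) (M := M)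
      (fun H => ⟨t3 H, by
        have := (t2 0 (Nat.zero_le _) H).trans (hMk 0 (Nat.zero_le _))
        rw [norm_iteratedFDeriv_zero] at this
        exact (le_abs_self _).trans this⟩)
      (fun k _ hk H => (t2 k hk H).trans (hMk k hk))
    have e : skaT μ Z m G = G + m⁻¹ • (Real.log ∘ fun H => ∫ ω, Real.exp (m * (G (H + Z ω) - G H)) ∂μ) := by
      funext H
      rw [ska_T_eq_tilt hZ hn hG hm H]
      simp
    have l1' : ContDiff ℝ n (m⁻¹ • (Real.log ∘ fun H => ∫ ω, Real.exp (m * (G (H + Z ω) - G H)) ∂μ)) := l1.const_smul m⁻¹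
    refine ⟨C + |m⁻¹| * C', ?_, fun k hk1 hk H => ?_⟩
    · rw [e]
      exact hG.1.add l1'
    · have hk' : ((k : ℕ) : WithTop ℕ∞) ≤ n := by exact_mod_cast hk
      rw [e, iteratedFDeriv_add_apply (hG.1.of_le hk').contDiffAt (l1'.of_le hk').contDiffAt,
        iteratedFDeriv_const_smul_apply (l1.of_le hk').contDiffAt]
      refine (norm_add_le _ _).trans (add_le_add (hG.2 k hk1 hk H) ?_)
      rw [norm_smul, Real.norm_eq_abs]
      exact mul_le_mul_of_nonneg_left (l2 k hk H) (abs_nonneg _)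

theorem ska_N_G [CompleteSpace F] (hZ : SkaInc μ Z) {n : ℕ} {C : ℝ} {G : E → ℝ} (hn : 1 ≤ n) (hG : SkaReg n C G) (m : ℝ) {A : E → F} (hA : SkaG n A) :
    SkaG n (skaN μ Z m G A) :=
  (ska_G_conv hZ (ska_G_smul (ska_G_exp hn hG m) hA)).1

/-- **the planted kernel preserves the class of the observables** -/
theorem ska_P_G [CompleteSpace F] [IsProbabilityMeasure μ] (hZ : SkaInc μ Z) {n : ℕ} {C : ℝ} {G : E → ℝ} (hn : 1 ≤ n) (hG : SkaReg n C G) (m : ℝ)
    {A : E → F} (hA : SkaG n A) : SkaG n (skaP μ Z m G A) := by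
  obtain ⟨C', hT⟩ := ska_T_reg hZ hn hG m
  have e : skaP μ Z m G A = fun H => Real.exp (-m * skaT μ Z m G H) • skaN μ Z m G A H := funext fun H => ska_P_eq_N m G A H
  rw [e]
  exact ska_G_smul (ska_G_exp hn hT (-m)) (ska_N_G hZ hn hG m hA)

end TP

section formulas

variable {E F F₂ : Type} [NormedAddCommGroup E] [NormedSpace ℝ E] [NormedAddCommGroup F] [NormedSpace ℝ F] [NormedAddCommGroup F₂] [NormedSpace ℝ F₂]
  {Ω : Type*} [MeasurableSpace Ω] {μ : Measure Ω} {Z : Ω → E}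

theorem ska_N_int (hZ : SkaInc μ Z) {n : ℕ} {C : ℝ} {G : E → ℝ} (hn : 1 ≤ n) (hG : SkaReg n C G) (m : ℝ) {k : ℕ} {A : E → F} (hA : SkaG k A) (H : E) :
    Integrable (fun ω => Real.exp (m * G (H + Z ω)) • A (H + Z ω)) μ :=
  ska_G_int hZ (ska_G_smul (ska_G_of_le (ska_G_exp hn hG m) (Nat.zero_le _)) (ska_G_of_le hA (Nat.zero_le _))) H

theorem ska_P_int (hZ : SkaInc μ Z) {n : ℕ} {C : ℝ} {G : E → ℝ} (hn : 1 ≤ n) (hG : SkaReg n C G) (m : ℝ) {k : ℕ} {A : E → F} (hA : SkaG k A) (H : E) :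
    Integrable (fun ω => Real.exp (m * (G (H + Z ω) - skaT μ Z m G H)) • A (H + Z ω)) μ := by
  have h := (ska_N_int hZ hn hG m hA H).smul (Real.exp (-m * skaT μ Z m G H))
  refine h.congr (Filter.Eventually.of_forall fun ω => ?_)
  simp only [Pi.smul_apply]
  rw [smul_smul, ← Real.exp_add]
  congr 2
  ring

theorem ska_P_const [CompleteSpace F] [IsProbabilityMeasure μ] (hZ : SkaInc μ Z) {n : ℕ} {C : ℝ} {G : E → ℝ} (hn : 1 ≤ n) (hG : SkaReg n C G) (m : ℝ) (a : F) (H : E) :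
    skaP μ Z m G (fun _ => a) H = a := by
  rw [ska_P_eq_N, skaN, integral_smul_const, ← ska_exp_T hZ hn hG m H, smul_smul, ← Real.exp_add]
  simp

theorem ska_P_add (hZ : SkaInc μ Z) {n : ℕ} {C : ℝ} {G : E → ℝ} (hn : 1 ≤ n) (hG : SkaReg n C G) (m : ℝ) {k : ℕ} {A B : E → F}
    (hA : SkaG k A) (hB : SkaG k B) (H : E) : skaP μ Z m G (fun x => A x + B x) H = skaP μ Z m G A H + skaP μ Z m G B H := by
  simp only [skaP, smul_add]
  exact integral_add (ska_P_int hZ hn hG m hA H) (ska_P_int hZ hn hG m hB H)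

theorem ska_P_sub (hZ : SkaInc μ Z) {n : ℕ} {C : ℝ} {G : E → ℝ} (hn : 1 ≤ n) (hG : SkaReg n C G) (m : ℝ) {k : ℕ} {A B : E → F}
    (hA : SkaG k A) (hB : SkaG k B) (H : E) : skaP μ Z m G (fun x => A x - B x) H = skaP μ Z m G A H - skaP μ Z m G B H := by
  simp only [skaP, smul_sub]
  exact integral_sub (ska_P_int hZ hn hG m hA H) (ska_P_int hZ hn hG m hB H)

theorem ska_P_const_smul (m : ℝ) (G : E → ℝ) (a : ℝ) (A : E → F) (H : E) : skaP μ Z m G (fun x => a • A x) H = a • skaP μ Z m G A H := by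
  simp only [skaP]
  rw [← integral_smul]
  refine integral_congr_ae (Filter.Eventually.of_forall fun ω => ?_)
  simp only
  rw [smul_comm]

theorem ska_P_sum (hZ : SkaInc μ Z) {n : ℕ} {C : ℝ} {G : E → ℝ} (hn : 1 ≤ n) (hG : SkaReg n C G) (m : ℝ) {k : ℕ} {κ : Type*} (s : Finset κ) {A : κ → E → F}
    (hA : ∀ i ∈ s, SkaG k (A i)) (H : E) : skaP μ Z m G (fun x => ∑ i ∈ s, A i x) H = ∑ i ∈ s, skaP μ Z m G (A i) H := by
  simp only [skaP, Finset.smul_sum]
  exact integral_finsetSum s fun i hi => ska_P_int hZ hn hG m (hA i hi) H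

theorem ska_P_clm [CompleteSpace F] [CompleteSpace F₂] (hZ : SkaInc μ Z) {n : ℕ} {C : ℝ} {G : E → ℝ} (hn : 1 ≤ n) (hG : SkaReg n C G) (m : ℝ) {k : ℕ} {A : E → F}
    (hA : SkaG k A) (L : F →L[ℝ] F₂) (H : E) : skaP μ Z m G (fun x => L (A x)) H = L (skaP μ Z m G A H) := by
  simp only [skaP]
  rw [← L.integral_comp_comm (ska_P_int hZ hn hG m hA H)]
  simp

theorem ska_P_mono (hZ : SkaInc μ Z) {n : ℕ} {C : ℝ} {G : E → ℝ} (hn : 1 ≤ n) (hG : SkaReg n C G) (m : ℝ) {k : ℕ} {a b : E → ℝ}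
    (ha : SkaG k a) (hb : SkaG k b) (hab : ∀ x, a x ≤ b x) (H : E) : skaP μ Z m G a H ≤ skaP μ Z m G b H :=
  integral_mono (ska_P_int hZ hn hG m ha H) (ska_P_int hZ hn hG m hb H) fun ω => by
    simp only [smul_eq_mul]
    exact mul_le_mul_of_nonneg_left (hab _) (Real.exp_pos _).le

theorem ska_P_nonneg (m : ℝ) (G : E → ℝ) {a : E → ℝ} (ha : ∀ x, 0 ≤ a x) (H : E) : 0 ≤ skaP μ Z m G a H :=
  integral_nonneg fun ω => by
    simp only [smul_eq_mul]
    exact mul_nonneg (Real.exp_pos _).le (ha _)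

theorem ska_P_norm_le (m : ℝ) (G : E → ℝ) (A : E → F) (H : E) : ‖skaP μ Z m G A H‖ ≤ skaP μ Z m G (fun x => ‖A x‖) H := by
  refine (norm_integral_le_integral_norm _).trans (le_of_eq ?_)
  simp only [skaP]
  refine integral_congr_ae (Filter.Eventually.of_forall fun ω => ?_)
  simp only
  rw [norm_smul, Real.norm_eq_abs, abs_of_pos (Real.exp_pos _), smul_eq_mul]

theorem ska_P_bound [IsProbabilityMeasure μ] (hZ : SkaInc μ Z) {n : ℕ} {C : ℝ} {G : E → ℝ} (hn : 1 ≤ n) (hG : SkaReg n C G) (m : ℝ)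
    {A : E → F} {b : ℝ} (hb : ∀ x, ‖A x‖ ≤ b) (H : E) : ‖skaP μ Z m G A H‖ ≤ b := by
  have h1 : Integrable (fun ω => Real.exp (m * (G (H + Z ω) - skaT μ Z m G H)) • b) μ := ska_P_int hZ hn hG m (ska_G_const 0 b) H
  have h2 := ska_P_const hZ hn hG m b H
  rw [skaP] at h2
  rw [← h2]
  refine norm_integral_le_of_norm_le h1 (Filter.Eventually.of_forall fun ω => ?_)
  rw [norm_smul, Real.norm_eq_abs, abs_of_pos (Real.exp_pos _), smul_eq_mul]
  exact mul_le_mul_of_nonneg_left (hb _) (Real.exp_pos _).le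

/-- the derivative of the unnormalised kernel -/
theorem ska_N_fderiv_apply [CompleteSpace F] (hZ : SkaInc μ Z) {n : ℕ} {C : ℝ} {G : E → ℝ} (hn : 1 ≤ n) (hG : SkaReg n C G) (m : ℝ) {A : E → F} (hA : SkaG n A) (H v : E) :
    fderiv ℝ (skaN μ Z m G A) H v = m • skaN μ Z m G (fun x => fderiv ℝ G x v • A x) H + skaN μ Z m G (fun x => fderiv ℝ A x v) H := by
  obtain ⟨j, rfl⟩ : ∃ j, n = j + 1 := ⟨n - 1, by omega⟩
  have hB : SkaG (j + 1) (fun x => Real.exp (m * G x) • A x) := ska_G_smul (ska_G_exp hn hG m) hA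
  have h1 := (ska_conv_fderiv hZ hn hB H).fderiv
  have hdG : ∀ x, HasFDerivAt G (fderiv ℝ G x) x := fun x => (hG.1.differentiable (by simp) x).hasFDerivAt
  have hdA : ∀ x, HasFDerivAt A (fderiv ℝ A x) x := fun x => ((ska_G_contDiff hA).differentiable (by simp) x).hasFDerivAt
  have h2 : ∀ x, fderiv ℝ (fun x => Real.exp (m * G x) • A x) x v
      = m • (Real.exp (m * G x) • (fderiv ℝ G x v • A x)) + Real.exp (m * G x) • fderiv ℝ A x v := fun x => by
    have := (((hdG x).const_mul m).exp.smul (hdA x)).fderiv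
    rw [show (fun x => Real.exp (m * G x) • A x) = (fun x => Real.exp (m * G x)) • A from rfl, this]
    simp only [_root_.add_apply, _root_.smul_apply, ContinuousLinearMap.smulRight_apply, smul_eq_mul]
    module
  have hGv : SkaG j (fun x => fderiv ℝ G x v • A x) := ska_G_smul (ska_G_apply (ska_G_fderiv (ska_G_of_reg hn hG)) v) (ska_G_of_le hA (Nat.le_succ _))
  have hAv : SkaG j (fun x => fderiv ℝ A x v) := ska_G_apply (ska_G_fderiv hA) v
  change fderiv ℝ (fun H => ∫ ω, Real.exp (m * G (H + Z ω)) • A (H + Z ω) ∂μ) H v = _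
  rw [h1, ContinuousLinearMap.integral_apply (ska_G_int hZ (ska_G_fderiv hB) H)]
  simp only [h2, skaN]
  have hi1 : Integrable (fun ω => m • (Real.exp (m * G (H + Z ω)) • (fderiv ℝ G (H + Z ω) v • A (H + Z ω)))) μ := (ska_N_int hZ hn hG m hGv H).smul m
  rw [integral_add hi1 (ska_N_int hZ hn hG m hAv H), integral_smul]

/-- **the derivative of `T_m G` is the planted mean of the derivative of `G`** -/
theorem ska_T_fderiv_apply [IsProbabilityMeasure μ] (hZ : SkaInc μ Z) {n : ℕ} {C : ℝ} {G : E → ℝ} (hn : 1 ≤ n) (hG : SkaReg n C G) (m : ℝ) (H v : E) :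
    fderiv ℝ (skaT μ Z m G) H v = skaP μ Z m G (fun x => fderiv ℝ G x v) H := by
  obtain ⟨j, rfl⟩ : ∃ j, n = j + 1 := ⟨n - 1, by omega⟩
  have hGG := ska_G_of_reg hn hG
  by_cases hm : m = 0
  · have e : skaT μ Z m G = fun H => ∫ ω, G (H + Z ω) ∂μ := by
      funext H
      rw [skaT, if_pos hm]
    rw [e, (ska_conv_fderiv hZ hn hGG H).fderiv, ContinuousLinearMap.integral_apply (ska_G_int hZ (ska_G_fderiv hGG) H)]
    simp [skaP, hm]
  · have e : skaT μ Z m G = fun H => m⁻¹ * Real.log (skaN μ Z m G (fun _ => (1 : ℝ)) H) := by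
      funext H
      rw [skaT, if_neg hm, ska_N_one]
    have hN1 : SkaG (j + 1) (skaN μ Z m G (fun _ => (1 : ℝ))) := ska_N_G hZ hn hG m (ska_G_const _ _)
    have hd : HasFDerivAt (skaN μ Z m G (fun _ => (1 : ℝ))) (fderiv ℝ (skaN μ Z m G (fun _ => (1 : ℝ))) H) H :=
      ((ska_G_contDiff hN1).differentiable (by simp) H).hasFDerivAt
    have hpos : 0 < skaN μ Z m G (fun _ => (1 : ℝ)) H := by
      rw [ska_N_one]
      exact ska_N_one_pos hZ hn hG m H
    rw [e, ((hd.log hpos.ne').const_mul m⁻¹).fderiv]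
    simp only [_root_.smul_apply, smul_eq_mul]
    rw [ska_N_fderiv_apply hZ hn hG m (ska_G_const _ _) H v, ska_P_eq_N]
    have h0 : skaN μ Z m G (fun x => fderiv ℝ (fun _ : E => (1 : ℝ)) x v) H = 0 := by
      simp [skaN]
    have h1 : Real.exp (-m * skaT μ Z m G H) = (skaN μ Z m G (fun _ => (1 : ℝ)) H)⁻¹ := by
      rw [ska_N_one, ← ska_exp_T hZ hn hG m H, ← Real.exp_neg]
      congr 1
      ring
    rw [h0, h1]
    simp only [smul_eq_mul, mul_one, add_zero]
    field_simp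

theorem ska_T_hasFDerivAt [IsProbabilityMeasure μ] (hZ : SkaInc μ Z) {n : ℕ} {C : ℝ} {G : E → ℝ} (hn : 1 ≤ n) (hG : SkaReg n C G) (m : ℝ) (H : E) :
    HasFDerivAt (skaT μ Z m G) (skaP μ Z m G (fderiv ℝ G) H) H := by
  obtain ⟨j, rfl⟩ : ∃ j, n = j + 1 := ⟨n - 1, by omega⟩
  obtain ⟨C', hT⟩ := ska_T_reg hZ hn hG m
  have e : fderiv ℝ (skaT μ Z m G) H = skaP μ Z m G (fderiv ℝ G) H := by
    ext v
    rw [ska_T_fderiv_apply hZ hn hG m H v]
    exact ska_P_clm hZ hn hG m (ska_G_fderiv (ska_G_of_reg hn hG)) (ContinuousLinearMap.apply ℝ ℝ v) H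
  rw [← e]
  exact (hT.1.differentiable (by simp) H).hasFDerivAt

/-- **the derivative of the planted kernel** -/
theorem ska_P_fderiv_apply [CompleteSpace F] [IsProbabilityMeasure μ] (hZ : SkaInc μ Z) {n : ℕ} {C : ℝ} {G : E → ℝ} (hn : 1 ≤ n) (hG : SkaReg n C G) (m : ℝ)
    {A : E → F} (hA : SkaG n A) (H v : E) :
    fderiv ℝ (skaP μ Z m G A) H v = skaP μ Z m G (fun x => fderiv ℝ A x v) H
      + m • (skaP μ Z m G (fun x => fderiv ℝ G x v • A x) H - skaP μ Z m G (fun x => fderiv ℝ G x v) H • skaP μ Z m G A H) := by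
  have e : skaP μ Z m G A = fun H => Real.exp (-m * skaT μ Z m G H) • skaN μ Z m G A H := funext fun H => ska_P_eq_N m G A H
  have hT := ska_T_hasFDerivAt hZ hn hG m H
  have hN : HasFDerivAt (skaN μ Z m G A) (fderiv ℝ (skaN μ Z m G A) H) H :=
    ((ska_G_contDiff (ska_N_G hZ hn hG m hA)).differentiable (by simp; omega) H).hasFDerivAt
  rw [e, show (fun H => Real.exp (-m * skaT μ Z m G H) • skaN μ Z m G A H) = (fun H => Real.exp (-m * skaT μ Z m G H)) • skaN μ Z m G A from rfl,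
    ((hT.const_mul (-m)).exp.smul hN).fderiv]
  simp only [_root_.add_apply, _root_.smul_apply, ContinuousLinearMap.smulRight_apply, smul_eq_mul]
  rw [ska_N_fderiv_apply hZ hn hG m hA H v, ← hT.fderiv, ska_T_fderiv_apply hZ hn hG m H v]
  simp only [ska_P_eq_N, smul_eq_mul, Pi.smul_apply']
  module

end formulas

end Claimed.Agent.R286
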